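import Vale.Agent.P181.MR.Defs

set_option autoImplicit false

/-! P181, MR, row LOW: the group of the permutations which preserve the sizes. -/

namespace Vale.Agent.P181.MR.H221

open Vale.Agent.P181.MR

variable {h B ν : ℕ}

theorem grp_inr (f : Lt h B ν → ℕ) (h1 : ∀ y j, f j = f (Sum.inr y) → j = Sum.inr y)
    (e : Equiv.Perm (Lt h B ν)) (he : ∀ j, f (e j) = f j) (y : Fin h × Fin ν) :
    e (Sum.inr y) = Sum.inr y :=
  h1 y _ (he _)

theorem grp_inl (f : Lt h B ν → ℕ) (h1 : ∀ y j, f j = f (Sum.inr y) → j = Sum.inr y)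
    (h2 : ∀ z z' : Fin h × Fin B × Fin ν, f (Sum.inl z) = f (Sum.inl z') →
      z.1 = z'.1 ∧ z.2.1 = z'.2.1)
    (e : Equiv.Perm (Lt h B ν)) (he : ∀ j, f (e j) = f j) (z : Fin h × Fin B × Fin ν) :
    ∃ p, e (Sum.inl z) = Sum.inl (z.1, z.2.1, p) := by
  rcases hz : e (Sum.inl z) with w | y
  · have h3 := he (Sum.inl z)
    rw [hz] at h3
    obtain ⟨h4, h5⟩ := h2 w z h3
    exact ⟨w.2.2, congrArg Sum.inl (Prod.ext h4 (Prod.ext h5 rfl))⟩
  · exfalso
    have h3 : e (Sum.inl z) = e (Sum.inr y) := by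
      rw [hz, grp_inr f h1 e he y]
    have h4 := e.injective h3
    simp at h4

/-- The order of the group. -/
theorem card_group (f : Lt h B ν → ℕ) (h1 : ∀ y j, f j = f (Sum.inr y) → j = Sum.inr y)
    (h2 : ∀ z z' : Fin h × Fin B × Fin ν, f (Sum.inl z) = f (Sum.inl z') →
      z.1 = z'.1 ∧ z.2.1 = z'.2.1) :
    Fintype.card {e : Equiv.Perm (Lt h B ν) // ∀ j, f (e j) = f j} ≤ ν.factorial ^ (h * B) := by
  classical
  have key : ∀ e : {e : Equiv.Perm (Lt h B ν) // ∀ j, f (e j) = f j}, ∀ k : Fin h × Fin B,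
      ∃ s : Equiv.Perm (Fin ν), ∀ p, e.1 (Sum.inl (k.1, k.2, p)) = Sum.inl (k.1, k.2, s p) := by
    intro e k
    have h3 := fun p : Fin ν => grp_inl f h1 h2 e.1 e.2 (k.1, k.2, p)
    choose q hq using h3
    have hinj : Function.Injective q := by
      intro p p' hp
      have h4 : e.1 (Sum.inl (k.1, k.2, p)) = e.1 (Sum.inl (k.1, k.2, p')) := by
        rw [hq p, hq p', hp]
      have h5 := Sum.inl_injective (e.1.injective h4)
      exact congrArg (fun z : Fin h × Fin B × Fin ν => z.2.2) h5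
    refine ⟨Equiv.ofBijective q (Finite.injective_iff_bijective.1 hinj), fun p => ?_⟩
    rw [hq p]
    rfl
  choose s hs using key
  have hcard : Fintype.card (Fin h × Fin B → Equiv.Perm (Fin ν)) = ν.factorial ^ (h * B) := by
    rw [Fintype.card_fun, Fintype.card_perm, Fintype.card_fin, Fintype.card_prod,
      Fintype.card_fin, Fintype.card_fin]
  rw [← hcard]
  refine Fintype.card_le_of_injective s ?_
  intro e e' he
  apply Subtype.ext
  apply Equiv.ext
  intro j
  rcases j with z | y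
  · have h3 := hs e (z.1, z.2.1) z.2.2
    have h4 := hs e' (z.1, z.2.1) z.2.2
    rw [he] at h3
    exact h3.trans h4.symm
  · rw [grp_inr f h1 e.1 e.2 y, grp_inr f h1 e'.1 e'.2 y]

/-- The order of the group, for sizes `c + r`. -/
theorem card_group' (c r : Lt h B ν → ℕ)
    (h1 : ∀ y j, c j + r j = c (Sum.inr y) + r (Sum.inr y) → j = Sum.inr y)
    (h2 : ∀ z z' : Fin h × Fin B × Fin ν,
      c (Sum.inl z) + r (Sum.inl z) = c (Sum.inl z') + r (Sum.inl z') →
      z.1 = z'.1 ∧ z.2.1 = z'.2.1) :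
    Fintype.card {e : Equiv.Perm (Lt h B ν) // ∀ j, c (e j) + r (e j) = c j + r j} ≤
      ν.factorial ^ (h * B) :=
  card_group (fun j => c j + r j) h1 h2

end Vale.Agent.P181.MR.H221
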